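import Vale.Agent.P251.St.Base
import Mathlib.Topology.Compactness.CompactlyGeneratedSpace
import Mathlib.Topology.Homotopy.Basic
import Mathlib.Topology.Instances.Matrix
import Mathlib.CategoryTheory.Localization.Predicate

/-!
# Orthogonal spectra and the stable homotopy category

`IsSH T S`: the category `T` is the localization of orthogonal spectra (of compactly generated weak
Hausdorff spaces) at the `π_*`-isomorphisms, its tensor product is the derived smash product, its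
distinguished triangles are the mapping cone sequences and `S` is the suspension spectrum functor.
-/

open CategoryTheory MonoidalCategory OnePoint Matrix

namespace Vale.Agent.P251C

open Vale.Agent.P251.St Vale.Agent.P251.St.SHCat

/-- Pairs of a linear isometry `A : ℝ^m → ℝ^n` and a vector `v` orthogonal to its image; the
one-point compactification is the Thom space of the orthogonal complement bundle. -/
abbrev Emb (m n : ℕ) : Type :=
  {p : Matrix (Fin n) (Fin m) ℝ × (Fin n → ℝ) // p.1ᵀ * p.1 = 1 ∧ p.1ᵀ *ᵥ p.2 = 0}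

/-- The affine map `s ↦ A s + v` (it determines the pair). -/
def ap {m n : ℕ} (f : Emb m n) (s : Fin m → ℝ) : Fin n → ℝ := f.1.1 *ᵥ s + f.1.2

/-- An orthogonal spectrum: a based continuous functor from the Thom spaces to based compactly
generated weak Hausdorff spaces. -/
structure OSp where
  /-- the levels -/
  sp : ℕ → Type
  [top : ∀ n, TopologicalSpace (sp n)]
  cg : ∀ n, CompactlyGeneratedSpace (sp n)
  wh : ∀ n (K : Type) [TopologicalSpace K] [CompactSpace K] [T2Space K] (g : C(K, sp n)),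
    IsClosed (Set.range g)
  /-- the base points -/
  pt : ∀ n, sp n
  /-- the action -/
  act : ∀ {m n}, OnePoint (Emb m n) → sp m → sp n
  cont : ∀ m n, Continuous fun p : OnePoint (Emb m n) × sp m => act p.1 p.2
  act_infty : ∀ m n (x : sp m), act (∞ : OnePoint (Emb m n)) x = pt n
  act_pt : ∀ m n (f : OnePoint (Emb m n)), act f (pt m) = pt n
  act_id : ∀ n (e : Emb n n), (∀ s, ap e s = s) → ∀ x, act (.some e) x = x
  act_comp : ∀ l m n (f : Emb l m) (g : Emb m n) (h : Emb l n), (∀ s, ap h s = ap g (ap f s)) →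
    ∀ x, act (.some h) x = act (.some g) (act (.some f) x)

attribute [instance] OSp.top

/-- Morphisms of orthogonal spectra. -/
@[ext] structure OSp.Hom (X Y : OSp) where
  /-- the components -/
  app : ∀ n, C(X.sp n, Y.sp n)
  pt : ∀ n, app n (X.pt n) = Y.pt n
  nat : ∀ m n (f : Emb m n) x, app n (X.act (.some f) x) = Y.act (.some f) (app m x)

instance : Category OSp where
  Hom := OSp.Hom
  id X := ⟨fun n => .id (X.sp n), fun _ => rfl, fun _ _ _ _ => rfl⟩
  comp f g := ⟨fun n => (g.app n).comp (f.app n),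
    fun n => (congrArg (g.app n) (f.pt n)).trans (g.pt n),
    fun m n e x => (congrArg (g.app n) (f.nat m n e x)).trans (g.nat m n e _)⟩

/-- Based maps `K⁺ → X_n`. -/
abbrev Pm (K : Space) (X : OSp) (n : ℕ) : Type := {f : C(K.Pt, X.sp n) // f ∞ = X.pt n}

/-- Based maps `S^j → X_n` are related if they are based homotopic or if the second is the
suspension `S^1 ∧ S^j → S^1 ∧ X_n → X_{n+1}` of the first. The quotient is the disjoint union of the
homotopy groups `π_k X = colim_n π_{k+n} X_n`, `k = j - n ∈ ℤ`. -/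
inductive PiRel (X : OSp) : (Σ j n, Pm (Rn j) X n) → (Σ j n, Pm (Rn j) X n) → Prop
  | htpy {j n} (f g : Pm (Rn j) X n) : f.1.HomotopicRel g.1 {∞} → PiRel X ⟨j, n, f⟩ ⟨j, n, g⟩
  | stab {j n} (f : Pm (Rn j) X n) (g : Pm (Rn (j + 1)) X (n + 1)) :
      (∀ (t : ℝ) (e : Emb n (n + 1)), (∀ s, ap e s = Fin.cons t s) → ∀ y : Fin j → ℝ,
        g.1 (.some (Fin.cons t y)) = X.act (.some e) (f.1 (.some y))) →
      PiRel X ⟨j, n, f⟩ ⟨j + 1, n + 1, g⟩

/-- The `π_*`-isomorphisms. -/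
def piIso : MorphismProperty OSp := fun X Y f => ∃ e : Quot (PiRel X) ≃ Quot (PiRel Y),
  ∀ j n (g : Pm (Rn j) X n) (g' : Pm (Rn j) Y n), (∀ y, g'.1 y = f.app n (g.1 y)) →
    e (Quot.mk _ ⟨j, n, g⟩) = Quot.mk _ ⟨j, n, g'⟩

/-- Bimorphisms: based maps `X_m ∧ Y_n → Z_{m+n}` (continuous for the compactly generated product),
natural for direct sums. -/
structure Bim (X Y Z : OSp) where
  /-- the maps -/
  ev : ∀ {m n}, X.sp m → Y.sp n → Z.sp (m + n)
  cont : ∀ m n (K : Type) [TopologicalSpace K] [CompactSpace K] [T2Space K] (x : C(K, X.sp m))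
    (y : C(K, Y.sp n)), Continuous fun k => ev (x k) (y k)
  pt_left : ∀ m n (y : Y.sp n), ev (X.pt m) y = Z.pt (m + n)
  pt_right : ∀ m n (x : X.sp m), ev x (Y.pt n) = Z.pt (m + n)
  nat : ∀ m n m' n' (f : Emb m m') (g : Emb n n') (h : Emb (m + n) (m' + n')),
    (∀ s t, ap h (Fin.append s t) = Fin.append (ap f s) (ap g t)) →
    ∀ x y, ev (X.act (.some f) x) (Y.act (.some g) y) = Z.act (.some h) (ev x y)

/-- `b` is universal: `Z` is the smash product `X ∧ Y`. -/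
def IsUniv {X Y Z : OSp} (b : Bim X Y Z) : Prop := ∀ (W : OSp) (c : Bim X Y W), ∃! h : Z ⟶ W,
  ∀ m n (x : X.sp m) (y : Y.sp n), h.app _ (b.ev x y) = c.ev x y

/-- `- ∧ Y` preserves `π_*`-isomorphisms. -/
def IsFlat (Y : OSp) : Prop := ∀ {X X' Z Z' : OSp} (b : Bim X Y Z) (b' : Bim X' Y Z') (f : X ⟶ X')
  (h : Z ⟶ Z'), IsUniv b → IsUniv b' →
  (∀ m n (x : X.sp m) (y : Y.sp n), h.app _ (b.ev x y) = b'.ev (f.app m x) y) → piIso f → piIso h

/-- `u` is universal: `X` is the suspension spectrum `Σ^∞ K⁺`. -/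
def IsFree {K : Space} {X : OSp} (u : Pm K X 0) : Prop := ∀ (W : OSp) (v : Pm K W 0),
  ∃! h : X ⟶ W, ∀ k, h.app 0 (u.1 k) = v.1 k

/-- `C` is the mapping cone `Y ∪ (X ∧ [0, ∞])` of `f`, `D` is `X ∧ S^1` and `d : C → D` is the
collapse of `Y` (`(0, ∞)` is identified with `ℝ` by the logarithm). -/
structure MCone {X Y C D H R : OSp} (f : X ⟶ Y) (j : Y ⟶ C) (d : C ⟶ D) (u : Pm Hh H 0)
    (r : Pm Rr R 0) (k : Bim X H C) (s : Bim X R D) : Prop where
  free : IsFree u ∧ IsFree r ∧ IsUniv s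
  glue : ∀ n (x : X.sp n), k.ev x (u.1 (.some 0)) = j.app n (f.app n x)
  pushout : ∀ (W : OSp) (j' : Y ⟶ W) (k' : Bim X H W),
    (∀ n (x : X.sp n), k'.ev x (u.1 (.some 0)) = j'.app n (f.app n x)) → ∃! w : C ⟶ W,
      j ≫ w = j' ∧ ∀ m n (x : X.sp m) (y : H.sp n), w.app _ (k.ev x y) = k'.ev x y
  collapse : ∀ n y, d.app n (j.app n y) = D.pt n
  interior : ∀ n (x : X.sp n) (t : NNReal), 0 < t →
    d.app n (k.ev x (u.1 (.some t))) = s.ev x (r.1 (.some (Real.log t)))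

/-- `T` is the stable homotopy category and `S` the suspension spectrum functor. -/
structure IsSH (T : SHCat) (S : Susp T) where
  /-- the localization functor -/
  L : OSp ⥤ T.C
  loc : L.IsLocalization piIso
  /-- the lax symmetric monoidal structure -/
  mu : ∀ {X Y Z : OSp}, Bim X Y Z → (L.obj X ⊗ L.obj Y ⟶ L.obj Z)
  /-- the comparison of suspension spectra -/
  io : ∀ {K : Space} {X : OSp}, Pm K X 0 → (S.obj K ⟶ L.obj X)
  ex_flat : ∀ X : OSp, ∃ (Y : OSp) (f : Y ⟶ X), IsFlat Y ∧ piIso f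
  ex_univ : ∀ X Y : OSp, ∃ (Z : OSp) (b : Bim X Y Z), IsUniv b
  ex_free : ∀ K : Space, ∃ (X : OSp) (u : Pm K X 0), IsFree u
  ex_cone : ∀ {X Y : OSp} (f : X ⟶ Y), ∃ (C D H R : OSp) (j : Y ⟶ C) (d : C ⟶ D) (u : Pm Hh H 0)
    (r : Pm Rr R 0) (k : Bim X H C) (s : Bim X R D), MCone f j d u r k s
  mu_iso : ∀ {X Y Z : OSp} (b : Bim X Y Z), IsUniv b → IsFlat Y → IsIso (mu b)
  mu_nat : ∀ {X Y Z X' Y' Z' : OSp} (b : Bim X Y Z) (b' : Bim X' Y' Z') (f : X ⟶ X') (g : Y ⟶ Y')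
    (h : Z ⟶ Z'), (∀ m n (x : X.sp m) (y : Y.sp n),
      h.app _ (b.ev x y) = b'.ev (f.app m x) (g.app n y)) →
    mu b ≫ L.map h = (L.map f ⊗ₘ L.map g) ≫ mu b'
  mu_assoc : ∀ {X Y Z P Q W : OSp} (a : Bim X Y P) (b : Bim P Z W) (c : Bim Y Z Q) (d : Bim X Q W),
    (∀ l m n (e : Emb (l + m + n) (l + (m + n))), (∀ r s t,
      ap e (Fin.append (Fin.append r s) t) = Fin.append r (Fin.append s t)) →
      ∀ x y z, W.act (.some e) (b.ev (a.ev x y) z) = d.ev x (c.ev y z)) →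
    mu a ▷ L.obj Z ≫ mu b = (α_ _ _ _).hom ≫ L.obj X ◁ mu c ≫ mu d
  mu_comm : ∀ {X Y Z : OSp} (b : Bim X Y Z) (c : Bim Y X Z),
    (∀ m n (e : Emb (m + n) (n + m)), (∀ s t, ap e (Fin.append s t) = Fin.append t s) →
      ∀ x y, Z.act (.some e) (b.ev x y) = c.ev y x) → mu b = (β_ _ _).hom ≫ mu c
  mu_unit : ∀ {X Y Z : OSp} (b : Bim X Y Z) (u : Pm Pn Y 0) (g : X ⟶ Z),
    (∀ n (x : X.sp n), g.app n x = b.ev x (u.1 (.some ()))) →
    L.obj X ◁ (S.unit ≫ io u) ≫ mu b = (ρ_ _).hom ≫ L.map g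
  io_iso : ∀ {K : Space} {X : OSp} (u : Pm K X 0), FC K → IsFree u → IsFlat X ∧ IsIso (io u)
  io_nat : ∀ {K K' : Space} {X X' : OSp} (u : Pm K X 0) (u' : Pm K' X' 0) (a : Map K K')
    (f : X ⟶ X'), FC K → FC K' → (∀ k, u'.1 (a.toFun k) = f.app 0 (u.1 k)) →
    S.map a ≫ io u' = io u ≫ L.map f
  io_mul : ∀ {K K' : Space} {X Y Z : OSp} (u : Pm K X 0) (v : Pm K' Y 0)
    (w : Pm (K.prod K') Z 0) (b : Bim X Y Z), FC K → FC K' →
    (∀ k k', w.1 (smash k k') = b.ev (u.1 k) (v.1 k')) →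
    S.mul K K' ≫ io w = (io u ⊗ₘ io v) ≫ mu b
  cone : ∀ {X Y C D H R : OSp} (f : X ⟶ Y) (j : Y ⟶ C) (d : C ⟶ D) (u : Pm Hh H 0)
    (r : Pm Rr R 0) (k : Bim X H C) (s : Bim X R D) (δ : L.obj C ⟶ L.obj X ⊗ S.obj Rr),
    MCone f j d u r k s → δ ≫ L.obj X ◁ io r ≫ mu s = L.map d →
    Dist (L.map f) (L.map j) (δ ≫ L.obj X ◁ S.line ≫ tenSus (L.obj X))

end Vale.Agent.P251C
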