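import Vale.Agent.P251C.Defs
import Vale.Agent.P251CM.Model

/-!
# P251C: interfaces

* `GenB M`: functorial flat replacement (generic);
* `LaxData M T S`: what the generic theory delivers for `M`;
* `Bridge`: the dictionary between a `StabInput` structure on `OSp` and the literal notions.
-/

open CategoryTheory MonoidalCategory Limits Pretriangulated OnePoint
open Functor.LaxMonoidal

namespace Vale.Agent.P251C

open Vale.Agent.P251 Vale.Agent.P251.G Vale.Agent.P251.G.LC Vale.Agent.P251.H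
  Vale.Agent.P251.H.StabInput Vale.Agent.P251CM Vale.Agent.P251.St

section generic

variable (M : Type 1) [Category.{0} M] [MonoidalCategory M] [SymmetricCategory M]
    [MonoidalClosed M] [HasZeroMorphisms M] [HasColimitsOfSize.{0, 0} M] [StabInput M]

/-- (B) functorial flat replacement -/
def GenB : Prop := ∃ (Q : M ⥤ M) (q : Q ⟶ 𝟭 M),
  (∀ X, Flat (WW M) (Q.obj X)) ∧ ∀ X, WW M (q.app X)

/-- (E) the localization of all of `M` with its lax monoidal structure -/
structure LaxData (T : SHCat) (S : Susp T) where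
  /-- the localization functor -/
  L : M ⥤ T.C
  loc : L.IsLocalization (WW M)
  /-- lax braided structure -/
  lax : L.LaxBraided
  mu_iso : ∀ X Y : M, Flat (WW M) Y → IsIso (μ L X Y)
  /-- comparison of suspension spectra -/
  e : ∀ K : Space, S.obj K ⟶ L.obj ((J M).obj (toLC K))
  e_iso : ∀ {K : Space}, FC K → IsIso (e K)
  e_map : ∀ {K K' : Space} (a : Map K K'), FC K → FC K' →
    S.map a ≫ e K' = e K ≫ L.map ((J M).map (toHom a))
  e_mul : ∀ {K K' : Space}, FC K → FC K' → S.mul K K' ≫ e (K.prod K') =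
    (e K ⊗ₘ e K') ≫ μ L _ _ ≫ L.map (μ (J M) (toLC K) (toLC K'))
  e_unit : S.unit ≫ e Pn = ε L ≫ L.map (ε (J M))
  cone : ∀ {X Y C : M} {f : X ⟶ Y} {k : X ⊗ CI M ⟶ C} {i : Y ⟶ C} {q : C ⟶ X ⊗ StabInput.S M},
    StabInput.IsCone f k i q → ∀ δ : L.obj C ⟶ L.obj X ⊗ S.obj Rr,
    δ ≫ L.obj X ◁ e Rr ≫ μ L X (StabInput.S M) = L.map q →
    SHCat.Dist (L.map f) (L.map i) (δ ≫ L.obj X ◁ S.line ≫ SHCat.tenSus (L.obj X))

/-- (E) the generic statement -/
def GenE : Prop := GenB M → ∃ (T : SHCat) (S : Susp T), Nonempty (LaxData M T S)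

end generic

section bridge

variable [MonoidalCategory OSp] [SymmetricCategory OSp] [MonoidalClosed OSp]
  [HasZeroMorphisms OSp] [HasColimitsOfSize.{0, 0} OSp] [StabInput OSp]

/-- (BR1) the tensor product is the universal bimorphism -/
structure BrTen where
  /-- the universal bimorphism -/
  tb : ∀ X Y : OSp, Bim X Y (X ⊗ Y)
  univ : ∀ X Y, IsUniv (tb X Y)
  nat : ∀ {X Y X' Y' : OSp} (f : X ⟶ X') (g : Y ⟶ Y') m n (x : X.sp m) (y : Y.sp n),
    (f ⊗ₘ g).app _ ((tb X Y).ev x y) = (tb X' Y').ev (f.app m x) (g.app n y)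
  assoc : ∀ (X Y Z : OSp) l m n (e : Emb (l + m + n) (l + (m + n))), (∀ r s t,
      ap e (Fin.append (Fin.append r s) t) = Fin.append r (Fin.append s t)) →
    ∀ (x : X.sp l) (y : Y.sp m) (z : Z.sp n),
      (X ⊗ Y ⊗ Z).act (.some e) ((α_ X Y Z).hom.app _ ((tb (X ⊗ Y) Z).ev ((tb X Y).ev x y) z)) =
        (tb X (Y ⊗ Z)).ev x ((tb Y Z).ev y z)
  comm : ∀ (X Y : OSp) m n (e : Emb (m + n) (n + m)),
    (∀ s t, ap e (Fin.append s t) = Fin.append t s) → ∀ (x : X.sp m) (y : Y.sp n),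
      (Y ⊗ X).act (.some e) ((β_ X Y).hom.app _ ((tb X Y).ev x y)) = (tb Y X).ev y x
  zero : ∀ (X Y : OSp) n (x : X.sp n), (0 : X ⟶ Y).app n x = Y.pt n

/-- (BR2) `J K` is the suspension spectrum -/
structure BrSp (B : BrTen) where
  /-- the universal map -/
  ju : ∀ K : Space, Pm K ((J OSp).obj (toLC K)) 0
  free : ∀ K, IsFree (ju K)
  map : ∀ {K K' : Space} (a : Map K K') (k : K.Pt),
    ((J OSp).map (toHom a)).app 0 ((ju K).1 k) = (ju K').1 (a.toFun k)
  mul : ∀ (K K' : Space) (k : K.Pt) (k' : K'.Pt),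
    (μ (J OSp) (toLC K) (toLC K')).app (0 + 0) ((B.tb _ _).ev ((ju K).1 k) ((ju K').1 k')) =
      (ju (K.prod K')).1 (St.smash k k')
  unit : ∀ (X : OSp) n (x : X.sp n),
    ((ρ_ X).inv ≫ X ◁ ε (J OSp)).app n x = (B.tb X _).ev x ((ju Pn).1 (.some ()))
  /-- all points come from level zero -/
  surj : ∀ (K : Space) n (y : ((J OSp).obj (toLC K)).sp n),
    ∃ (e : OnePoint (Emb 0 n)) (k : K.Pt), y = ((J OSp).obj (toLC K)).act e ((ju K).1 k)

/-- (BR3) the `π_*`-isomorphisms are the stable equivalences -/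
def BrPi : Prop := ∀ {X Y : OSp} (f : X ⟶ Y), piIso f ↔ WW OSp f

/-- (TOP) the literal statement from the dictionary and the generic theory -/
def TopOf : Prop := ∀ (B : BrTen) (_ : BrSp B), BrPi → GenB OSp →
  ∀ (T : SHCat) (S : Susp T), LaxData OSp T S → Nonempty (IsSH T S)

end bridge

/-- the target -/
def Target : Prop := ∃ (T : SHCat) (S : Susp T), Nonempty (IsSH T S)

end Vale.Agent.P251C
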